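import Vale.Agent.P139Z.Sym.Radial

/-!
Laplacian and Euler operator of radial functions; differentiated profile equations.
-/

open Set Filter Topology MeasureTheory Complex
open scoped NNReal ComplexConjugate ContDiff Real

namespace Vale.Agent.P139Z.Sym

variable {d : ℕ}

/-- Radial function. -/
noncomputable def rad (H : ℝ → ℂ) (z : Eu d) : ℂ := H (‖z‖ ^ 2)

/-- Radial function times a coordinate. -/
noncomputable def radX (i : Fin d) (H : ℝ → ℂ) (z : Eu d) : ℂ := 2 * (z i : ℂ) * H (‖z‖ ^ 2)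

theorem differentiable_rad {H : ℝ → ℂ} (hH : ContDiff ℝ ∞ H) :
    Differentiable ℝ (rad H : Eu d → ℂ) :=
  (hH.comp (contDiff_norm_sq ℝ)).differentiable (by simp)

theorem fderiv_rad {H : ℝ → ℂ} (hH : ContDiff ℝ ∞ H) (y v : Eu d) :
    fderiv ℝ (rad H) y v = 2 * (inner ℝ y v : ℝ) * deriv H (‖y‖ ^ 2) := by
  have h := (hasDerivAt_of hH (‖y‖ ^ 2)).hasFDerivAt.comp y
    (hasStrictFDerivAt_norm_sq y).hasFDerivAt
  have h' : HasFDerivAt (rad H) _ y := h
  rw [h'.fderiv]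
  simp [mul_assoc]

theorem hasFDerivAt_crd (i : Fin d) (y : Eu d) :
    HasFDerivAt (fun z : Eu d => (z i : ℂ))
      (Complex.ofRealCLM.comp (EuclideanSpace.proj i : Eu d →L[ℝ] ℝ)) y :=
  (Complex.ofRealCLM.comp (EuclideanSpace.proj i : Eu d →L[ℝ] ℝ)).hasFDerivAt

theorem differentiable_crd (i : Fin d) : Differentiable ℝ fun z : Eu d => 2 * (z i : ℂ) :=
  fun y => ((hasFDerivAt_crd i y).const_mul 2).differentiableAt

theorem fderiv_crd (i : Fin d) (y v : Eu d) :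
    fderiv ℝ (fun z : Eu d => 2 * (z i : ℂ)) y v = 2 * (v i : ℂ) := by
  rw [((hasFDerivAt_crd i y).const_mul 2).fderiv]
  simp

theorem fderiv_crd_mul (i : Fin d) {u : Eu d → ℂ} (hu : Differentiable ℝ u) (y v : Eu d) :
    fderiv ℝ (fun z : Eu d => 2 * (z i : ℂ) * u z) y v
      = 2 * (v i : ℂ) * u y + 2 * (y i : ℂ) * fderiv ℝ u y v := by
  rw [fderiv_fun_mul (differentiable_crd i y) (hu y)]
  simp only [add_apply, smul_apply, smul_eq_mul, fderiv_crd]
  ring

theorem differentiable_radX (i : Fin d) {H : ℝ → ℂ} (hH : ContDiff ℝ ∞ H) :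
    Differentiable ℝ (radX i H : Eu d → ℂ) :=
  (differentiable_crd i).mul (differentiable_rad hH)

theorem fderiv_radX (i : Fin d) {H : ℝ → ℂ} (hH : ContDiff ℝ ∞ H) (y v : Eu d) :
    fderiv ℝ (radX i H) y v = 2 * (v i : ℂ) * H (‖y‖ ^ 2)
      + 2 * (y i : ℂ) * (2 * (inner ℝ y v : ℝ) * deriv H (‖y‖ ^ 2)) := by
  have := fderiv_crd_mul i (differentiable_rad hH) y v
  rw [fderiv_rad hH] at this
  exact this

theorem inner_single (y : Eu d) (j : Fin d) :
    inner ℝ y (EuclideanSpace.single j (1 : ℝ)) = y j := by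
  simp [EuclideanSpace.inner_single_right]

theorem fderiv_rad_single {H : ℝ → ℂ} (hH : ContDiff ℝ ∞ H) (j : Fin d) :
    (fun z : Eu d => fderiv ℝ (rad H) z (EuclideanSpace.single j 1)) = radX j (deriv H) := by
  ext z
  rw [fderiv_rad hH, inner_single, radX]

theorem sum_sq (y : Eu d) : ∑ j, (y j : ℂ) ^ 2 = ((‖y‖ ^ 2 : ℝ) : ℂ) := by
  rw [EuclideanSpace.real_norm_sq_eq]
  push_cast
  rfl

theorem lap_rad {H : ℝ → ℂ} (hH : ContDiff ℝ ∞ H) (y : Eu d) :
    lap (rad H) y = 4 * ((‖y‖ ^ 2 : ℝ) : ℂ) * deriv (deriv H) (‖y‖ ^ 2)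
      + 2 * d * deriv H (‖y‖ ^ 2) := by
  unfold lap
  have h : ∀ j : Fin d, fderiv ℝ (fun z : Eu d => fderiv ℝ (rad H) z (EuclideanSpace.single j 1)) y
      (EuclideanSpace.single j 1) = 2 * deriv H (‖y‖ ^ 2)
        + (y j : ℂ) ^ 2 * (4 * deriv (deriv H) (‖y‖ ^ 2)) := by
    intro j
    rw [fderiv_rad_single hH, fderiv_radX j (contDiff_deriv hH), inner_single]
    simp only [PiLp.single_apply, if_true, Complex.ofReal_one]
    ring
  rw [Finset.sum_congr rfl fun j _ => h j, Finset.sum_add_distrib,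
    ← Finset.sum_mul _ fun j => (y j : ℂ) ^ 2, sum_sq]
  simp only [Finset.sum_const, Finset.card_univ, Fintype.card_fin, nsmul_eq_mul]
  ring

theorem eul_rad {H : ℝ → ℂ} (hH : ContDiff ℝ ∞ H) (y : Eu d) :
    eul (rad H) y = 2 * ((‖y‖ ^ 2 : ℝ) : ℂ) * deriv H (‖y‖ ^ 2) := by
  unfold eul
  rw [fderiv_rad hH, real_inner_self_eq_norm_sq]

theorem eul_radX (i : Fin d) {H : ℝ → ℂ} (hH : ContDiff ℝ ∞ H) (y : Eu d) :
    eul (radX i H) y = 2 * (y i : ℂ) *
      (H (‖y‖ ^ 2) + 2 * ((‖y‖ ^ 2 : ℝ) : ℂ) * deriv H (‖y‖ ^ 2)) := by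
  unfold eul
  rw [fderiv_radX i hH, real_inner_self_eq_norm_sq]
  ring

theorem lap_radX (i : Fin d) {H : ℝ → ℂ} (hH : ContDiff ℝ ∞ H) (y : Eu d) :
    lap (radX i H) y = 2 * (y i : ℂ) * (4 * ((‖y‖ ^ 2 : ℝ) : ℂ) * deriv (deriv H) (‖y‖ ^ 2)
      + (2 * d + 4) * deriv H (‖y‖ ^ 2)) := by
  unfold lap
  have h : ∀ j : Fin d,
      fderiv ℝ (fun z : Eu d => fderiv ℝ (radX i H) z (EuclideanSpace.single j 1)) y
        (EuclideanSpace.single j 1) =
        (if i = j then 8 * (y i : ℂ) * deriv H (‖y‖ ^ 2) else 0)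
          + 4 * (y i : ℂ) * deriv H (‖y‖ ^ 2)
          + (y j : ℂ) ^ 2 * (8 * (y i : ℂ) * deriv (deriv H) (‖y‖ ^ 2)) := by
    intro j
    have h1 : (fun z : Eu d => fderiv ℝ (radX i H) z (EuclideanSpace.single j 1))
        = fun z => 2 * (((EuclideanSpace.single j (1 : ℝ) : Eu d) i : ℝ) : ℂ) * rad H z
          + 2 * (z i : ℂ) * radX j (deriv H) z := by
      ext z
      rw [fderiv_radX i hH, inner_single, rad, radX]
    have h2 := differentiable_rad (d := d) hH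
    have h3 := differentiable_radX j (contDiff_deriv hH)
    rw [h1, fderiv_fun_add ((h2 y).const_mul _) (((differentiable_crd i).fun_mul h3) y),
      add_apply, fderiv_const_mul (h2 y), smul_apply,
      fderiv_crd_mul i h3, fderiv_rad hH, fderiv_radX j (contDiff_deriv hH), inner_single, radX]
    simp only [PiLp.single_apply, if_true, Complex.ofReal_one, smul_eq_mul]
    split_ifs with hij
    · subst hij
      push_cast
      ring
    · push_cast
      ring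
  rw [Finset.sum_congr rfl fun j _ => h j, Finset.sum_add_distrib, Finset.sum_add_distrib,
    ← Finset.sum_mul _ fun j => (y j : ℂ) ^ 2, sum_sq]
  simp only [Finset.sum_const, Finset.card_univ, Fintype.card_fin, nsmul_eq_mul,
    Finset.sum_ite_eq, Finset.mem_univ, if_true]
  ring

/-! #### the translation modes on the Fourier side -/

theorem allMom_X {F : Fq d → ℂ} (hF : AllMom F) (i : Fin d) :
    AllMom fun ξ => I * ξ i * F ξ := by
  intro k
  have h0 := AllMom.integrable hF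
  refine (hF (k + 1)).norm.mono' ?_ (Eventually.of_forall fun ξ => ?_)
  · have h1 := continuous_wt (d := d) k
    exact (by fun_prop : Continuous fun ξ : Fq d => (wt k ξ : ℂ)).aestronglyMeasurable.mul
      ((by fun_prop : Continuous fun ξ : Fq d => I * (ξ i : ℂ)).aestronglyMeasurable.mul h0.1)
  · have h1 : ‖ξ i‖ ≤ 1 + ‖ξ‖ := (norm_le_pi_norm ξ i).trans (by linarith)
    simp only [norm_mul, Complex.norm_real, Complex.norm_I, one_mul,
      Real.norm_of_nonneg (wt_pos _ ξ).le]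
    have h2 : wt (k + 1) ξ = wt k ξ * (1 + ‖ξ‖) := pow_succ _ _
    rw [h2, mul_assoc]
    have := wt_pos k ξ
    gcongr

theorem dot_line (ξ : Fq d) (y : Eu d) (i : Fin d) (t : ℝ) :
    dot ξ (y + t • EuclideanSpace.single i 1) = dot ξ y + t * ξ i := by
  simp [dot, mul_add, Finset.sum_add_distrib, mul_comm]

theorem hasDerivAt_wave (ξ : Fq d) (y : Eu d) (i : Fin d) (c : ℂ) (t : ℝ) :
    HasDerivAt (fun t : ℝ => cexp (I * dot ξ (y + t • EuclideanSpace.single i 1)) * c)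
      (cexp (I * dot ξ (y + t • EuclideanSpace.single i 1)) * (I * ξ i * c)) t := by
  simp only [dot_line]
  have h2 : HasDerivAt (fun t : ℝ => I * ((dot ξ y + t * ξ i : ℝ) : ℂ)) (I * ξ i) t := by
    have := (((hasDerivAt_ofReal' t).mul_const (ξ i : ℂ)).const_add (dot ξ y : ℂ)).const_mul I
    simpa using this
  have h3 := h2.cexp.mul_const c
  simpa only [mul_assoc] using h3

theorem hasDerivAt_evf {F : Fq d → ℂ} (hF : AllMom F) (i : Fin d) (y : Eu d) :
    HasDerivAt (fun t : ℝ => evf F (y + t • EuclideanSpace.single i 1))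
      (evf (fun ξ => I * ξ i * F ξ) y) 0 := by
  have h0 := AllMom.integrable hF
  have h1 := AllMom.integrable (allMom_X hF i)
  let Φ : ℝ → Fq d → ℂ := fun t ξ => cexp (I * dot ξ (y + t • EuclideanSpace.single i 1)) * F ξ
  let Φ' : ℝ → Fq d → ℂ := fun t ξ =>
      cexp (I * dot ξ (y + t • EuclideanSpace.single i 1)) * (I * ξ i * F ξ)
  have a1 : ∀ t, Integrable (Φ t) := fun t => integrable_ev h0 _
  have a2 : Integrable (Φ' 0) := integrable_ev h1 _
  have a3 : ∀ᵐ ξ : Fq d, ∀ t ∈ (univ : Set ℝ), ‖Φ' t ξ‖ ≤ ‖I * ξ i * F ξ‖ :=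
    Eventually.of_forall fun ξ t _ => by
      simp only [Φ']
      rw [norm_mul, norm_cexp_dot, one_mul]
  have a4 : ∀ᵐ ξ : Fq d, ∀ t ∈ (univ : Set ℝ), HasDerivAt (fun t => Φ t ξ) (Φ' t ξ) t :=
    Eventually.of_forall fun ξ t _ => hasDerivAt_wave ξ y i (F ξ) t
  have h := (hasDerivAt_integral_of_dominated_loc_of_deriv_le univ_mem
    (Eventually.of_forall fun t => (a1 t).1) (a1 0) a2.1 a3 h1.norm a4).2
  have a5 : ∫ ξ, Φ' 0 ξ = evf (fun ξ => I * ξ i * F ξ) y := by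
    simp only [Φ', zero_smul, add_zero, evf]
  rw [a5] at h
  exact h

theorem evf_X {F : Fq d → ℂ} (hF : AllMom F) {H : ℝ → ℂ} (hH : ContDiff ℝ ∞ H)
    (h : evf F = rad H) (i : Fin d) : evf (fun ξ => I * ξ i * F ξ) = radX i (deriv H) := by
  ext y
  have h1 := hasDerivAt_evf hF i y
  rw [h] at h1
  have h2 : HasDerivAt (fun t : ℝ => y + t • (EuclideanSpace.single i (1 : ℝ) : Eu d))
      (EuclideanSpace.single i 1) 0 := by
    simpa using ((hasDerivAt_id (0 : ℝ)).smul_const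
      (EuclideanSpace.single i (1 : ℝ) : Eu d)).const_add y
  have h3 := (differentiable_rad hH y).hasFDerivAt.comp_hasDerivAt_of_eq (0 : ℝ) h2 (by simp)
  rw [h1.unique h3, ← fderiv_rad_single hH]

/-! #### the differentiated profile equation -/

theorem norm_pow_eq (z : ℂ) (n : ℕ) : (‖z‖ : ℂ) ^ (2 * n) = z ^ n * conj z ^ n := by
  rw [pow_mul, ← mul_pow, Complex.mul_conj, Complex.normSq_eq_norm_sq]
  push_cast
  rfl

theorem hasDerivAt_nl {m : ℕ} (hm : 1 ≤ m) {G : ℝ → ℂ} {G' : ℂ} {ρ : ℝ} (h : HasDerivAt G G' ρ) :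
    HasDerivAt (fun t => (‖G t‖ : ℂ) ^ (2 * m) * G t)
      (pot1 m (G ρ) * G' + pot2 m (G ρ) * conj G') ρ := by
  obtain ⟨n, rfl⟩ : ∃ n, m = n + 1 := ⟨m - 1, by omega⟩
  have h1 : HasDerivAt (fun t => conj (G t)) (conj G') ρ := h.star
  have h2 := ((h.fun_pow (n + 1)).fun_mul (h1.fun_pow (n + 1))).fun_mul h
  simp only [norm_pow_eq, pot1, pot2, Nat.add_sub_cancel]
  refine h2.congr_deriv ?_
  simp only [Nat.add_sub_cancel]
  push_cast
  ring

theorem ode_deriv {m : ℕ} (hm : 1 ≤ m) {β : ℝ} {G : ℝ → ℂ} (h : IsProfile m β G) {ρ : ℝ}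
    (hρ : 0 ≤ ρ) :
    4 * ρ * deriv (deriv (deriv G)) ρ + (28 + I * ρ) * deriv (deriv G) ρ
      + I * (Lam m β + 1) * deriv G ρ
      = pot1 m (G ρ) * deriv G ρ + pot2 m (G ρ) * conj (deriv G ρ) := by
  have h0 := hasDerivAt_of h.smooth ρ
  have h1 := hasDerivAt_of (contDiff_deriv h.smooth) ρ
  have h2 := hasDerivAt_of (contDiff_deriv (contDiff_deriv h.smooth)) ρ
  have hr := hasDerivAt_ofReal' ρ
  have hL := ((((hr.const_mul 4).fun_mul h2).fun_add
    (((hr.const_mul I).const_add 24).fun_mul h1)).fun_add (h0.const_mul (I * Lam m β)))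
  have hR := hasDerivAt_nl hm h0
  have hL' := (hL.hasDerivWithinAt (s := Ici 0)).congr
    (f₁ := fun t => (‖G t‖ : ℂ) ^ (2 * m) * G t)
    (fun t ht => by
      have := h.ode t ht
      rw [iteratedDeriv_succ, iteratedDeriv_one] at this
      exact this.symm)
    (by
      have := h.ode ρ hρ
      rw [iteratedDeriv_succ, iteratedDeriv_one] at this
      exact this.symm)
  have := (uniqueDiffOn_Ici 0 ρ hρ).eq_deriv _ hL' hR.hasDerivWithinAt
  rw [← this]
  ring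

theorem Lam_add_conj {m : ℕ} (hm : 1 ≤ m) (β : ℝ) :
    (m : ℂ) * (Lam m β + conj (Lam m β)) = 1 := by
  have : (m : ℂ) ≠ 0 := by exact_mod_cast (by omega : m ≠ 0)
  simp only [Lam, map_sub, map_div₀, map_one, map_mul, Complex.conj_I, Complex.conj_ofReal,
    map_natCast, map_ofNat]
  field_simp
  ring

theorem ode_DG {m : ℕ} (hm : 1 ≤ m) {β : ℝ} {G : ℝ → ℂ} (h : IsProfile m β G) {ρ : ℝ}
    (hρ : 0 ≤ ρ) :
    4 * ρ * deriv (deriv (DG (Lam m β) G)) ρ + (24 + I * ρ) * deriv (DG (Lam m β) G) ρ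
      + I * (Lam m β + 1) * DG (Lam m β) G ρ
      = pot1 m (G ρ) * DG (Lam m β) G ρ + pot2 m (G ρ) * conj (DG (Lam m β) G ρ) := by
  have h1 := ode_deriv hm h hρ
  have h2 := h.ode ρ hρ
  rw [iteratedDeriv_succ, iteratedDeriv_one] at h2
  have h3 := Lam_add_conj hm β
  rw [deriv_DG _ h.smooth, deriv_DG _ (contDiff_deriv h.smooth)]
  obtain ⟨n, rfl⟩ : ∃ n, m = n + 1 := ⟨m - 1, by omega⟩
  simp only [DG, map_add, map_mul, Complex.conj_ofReal, pot1, pot2, norm_pow_eq,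
    Nat.add_sub_cancel] at h1 h2 ⊢
  push_cast at h1 h2 h3 ⊢
  linear_combination (ρ : ℂ) * h1 + (Lam (n + 1) β + 1) * h2
    - G ρ ^ (n + 1) * conj (G ρ) ^ (n + 1) * G ρ * h3

end Vale.Agent.P139Z.Sym
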