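import Vale.Agent.P139Z.Sym.Calc

/-!
The background data of a radial profile in dimension twelve.
-/

open Set Filter Topology MeasureTheory Complex
open scoped NNReal ComplexConjugate ContDiff Real

namespace Vale.Agent.P139Z.Sym

theorem exists_rad {d : ℕ} {H : ℝ → ℂ} (hH : ContDiff ℝ ∞ H) {a : ℝ} (ha : 0 < a)
    (hb : ∀ j : ℕ, ∃ C : ℝ, ∀ ρ : ℝ, 0 ≤ ρ → ‖iteratedDeriv j H ρ‖ ≤ C * (1 + ρ) ^ (-(a + j))) :
    ∃ F : Fq d → ℂ, AllMom F ∧ evf F = rad H := by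
  obtain ⟨F, h1, h2⟩ := exists_allMom (f := fun z : Eu d => H (‖z‖ ^ 2))
    (hH.comp (contDiff_norm_sq ℝ)) (a := 2 * a) (by linarith) (radial hH hb)
  exact ⟨F, h1, funext h2⟩

theorem DQr_eq (m : ℕ) (β : ℝ) {G : ℝ → ℂ} (hG : ContDiff ℝ ∞ G) (r : ℝ) :
    DQr m β G r = DG (Lam m β) G (r ^ 2) := by
  have h1 : HasDerivAt (fun t : ℝ => t ^ 2) (2 * r) r := by simpa using hasDerivAt_pow 2 r
  have h2 : HasDerivAt (Qr G) ((2 * r) • deriv G (r ^ 2)) r :=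
    (hasDerivAt_of hG (r ^ 2)).scomp r h1
  rw [DQr, h2.deriv, DG, Qr, Complex.real_smul]
  push_cast
  ring

theorem Lam_re (m : ℕ) (β : ℝ) : (Lam m β).re = 1 / (2 * (m : ℝ)) := by
  have : (1 / (2 * (m : ℂ))) = ((1 / (2 * (m : ℝ)) : ℝ) : ℂ) := by push_cast; rfl
  rw [Lam, this, Complex.sub_re, Complex.ofReal_re]
  simp

theorem bgd {m : ℕ} (hm : 1 ≤ m) {β : ℝ} {G : ℝ → ℂ} (h : IsProfile m β G) :
    ∃ B : Bg 12 m, B.Λ = Lam m β ∧ (∀ y, evf B.Q y = G (‖y‖ ^ 2)) ∧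
      (∀ y, evf B.DQ y = DQr m β G ‖y‖) ∧
      ∀ i y, evf (fun ξ => I * ξ i * B.Q ξ) y = 2 * (y i : ℂ) * deriv G (‖y‖ ^ 2) := by
  have ha : 0 < 1 / (2 * (m : ℝ)) := by
    have : (0 : ℝ) < m := by exact_mod_cast hm
    positivity
  have hG := h.smooth
  obtain ⟨Q, hQ, hQe⟩ := exists_rad (d := 12) hG ha h.symbol
  obtain ⟨DQ, hD, hDe⟩ := exists_rad (d := 12) (contDiff_DG (Lam m β) hG) ha
    (symbol_DG _ hG h.symbol)
  have hX := evf_X hQ hG hQe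
  refine ⟨⟨Lam m β, Lam_re m β, Q, DQ, hQ, hD, allMom_X hQ, ?_, ?_, ?_, ?_, ?_⟩, rfl, ?_, ?_, ?_⟩
  · rw [hQe]
    simpa [rad] using h.ne_zero
  · intro y
    have h1 := h.ode (‖y‖ ^ 2) (by positivity)
    rw [iteratedDeriv_succ, iteratedDeriv_one] at h1
    rw [hQe, lap_rad hG, eul_rad hG, rad]
    push_cast at h1 ⊢
    linear_combination I * h1 - (((‖y‖ : ℂ)) ^ 2 * deriv G (‖y‖ ^ 2)
      + Lam m β * G (‖y‖ ^ 2)) * I_mul_I
  · intro y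
    rw [hQe, hDe, eul_rad hG, rad, rad, DG]
    ring
  · intro y
    have h1 := ode_DG hm h (ρ := ‖y‖ ^ 2) (by positivity)
    have h2 := contDiff_DG (Lam m β) hG
    rw [hQe, hDe, linF, lap_rad h2, eul_rad h2, rad, rad]
    push_cast at h1 ⊢
    linear_combination I * h1 - (((‖y‖ : ℂ)) ^ 2 * deriv (DG (Lam m β) G) (‖y‖ ^ 2)
      + (Lam m β + 1) * DG (Lam m β) G (‖y‖ ^ 2)) * I_mul_I
  · intro i y
    have h1 := ode_deriv hm h (ρ := ‖y‖ ^ 2) (by positivity)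
    have h2 := contDiff_deriv hG
    rw [hX, hQe, linF, lap_radX i h2, eul_radX i h2, rad, radX]
    simp only [map_mul, Complex.conj_ofReal, map_ofNat]
    push_cast at h1 ⊢
    linear_combination 2 * (y i : ℂ) * I * h1 - 2 * (y i : ℂ) *
      (((‖y‖ : ℂ)) ^ 2 * deriv (deriv G) (‖y‖ ^ 2)
      + (Lam m β + 1) * deriv G (‖y‖ ^ 2)) * I_mul_I
  · intro y
    exact congrFun hQe y
  · intro y
    rw [DQr_eq m β hG]
    exact congrFun hDe y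
  · intro i y
    exact congrFun (hX i) y

end Vale.Agent.P139Z.Sym
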