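import Vale.Agent.P139Z.Sym.Inv

/-!
Dyadic decomposition of a symbol of negative order.
-/

open Set Filter Topology MeasureTheory Complex
open scoped NNReal ENNReal ComplexConjugate ContDiff Real

namespace Vale.Agent.P139Z.Sym

variable {d : ℕ}

theorem le_infty (n : ℕ) : (n : WithTop ℕ∞) ≤ ((⊤ : ℕ∞) : WithTop ℕ∞) := by exact_mod_cast le_top

theorem integrable_tsum' {α : Type*} [MeasurableSpace α] {μ : Measure α} {F : ℕ → α → ℂ}
    (hF : ∀ j, Integrable (F j) μ) (hs : Summable fun j => ∫ a, ‖F j a‖ ∂μ) :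
    Integrable (fun a => ∑' j, F j a) μ := by
  refine ⟨(AEMeasurable.tsum fun j => (hF j).1.aemeasurable).aestronglyMeasurable, ?_⟩
  have h1 : ∀ j, ∫⁻ a, ‖F j a‖ₑ ∂μ = ENNReal.ofReal (∫ a, ‖F j a‖ ∂μ) := fun j =>
    (ofReal_integral_norm_eq_lintegral_enorm (hF j)).symm
  calc ∫⁻ a, ‖∑' j, F j a‖ₑ ∂μ ≤ ∫⁻ a, ∑' j, ‖F j a‖ₑ ∂μ :=
        lintegral_mono fun a => enorm_tsum_le_tsum_enorm
    _ = ∑' j, ∫⁻ a, ‖F j a‖ₑ ∂μ := lintegral_tsum fun j => (hF j).1.enorm
    _ = ENNReal.ofReal (∑' j, ∫ a, ‖F j a‖ ∂μ) := by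
        rw [ENNReal.ofReal_tsum_of_nonneg (fun j => integral_nonneg fun a => norm_nonneg _) hs]
        exact tsum_congr h1
    _ < ⊤ := ENNReal.ofReal_lt_top

theorem allMom_tsum {F : ℕ → Fq d → ℂ} (hF : ∀ j, AllMom (F j))
    (hs : ∀ k, Summable fun j => ∫ ξ, ‖(wt k ξ : ℂ) * F j ξ‖) :
    AllMom fun ξ => ∑' j, F j ξ := by
  intro k
  have := integrable_tsum' (fun j => hF j k) (hs k)
  simpa only [tsum_mul_left] using this

theorem AllMom.integrable {F : Fq d → ℂ} (hF : AllMom F) : Integrable F := by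
  simpa [wt] using hF 0

theorem continuous_dot (y : Eu d) : Continuous fun ξ : Fq d => dot ξ y := by
  unfold dot; fun_prop

theorem norm_cexp_dot (ξ : Fq d) (y : Eu d) : ‖cexp (I * dot ξ y)‖ = 1 := by
  rw [mul_comm, Complex.norm_exp_ofReal_mul_I]

theorem integrable_ev {F : Fq d → ℂ} (hF : Integrable F) (y : Eu d) :
    Integrable fun ξ => cexp (I * dot ξ y) * F ξ := by
  refine hF.norm.mono' ?_ (Eventually.of_forall fun ξ => ?_)
  · have := continuous_dot y
    exact (by fun_prop : Continuous fun ξ : Fq d => cexp (I * dot ξ y)).aestronglyMeasurable.mul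
      hF.1
  · rw [norm_mul, norm_cexp_dot, one_mul]

theorem hasSum_evf {F : ℕ → Fq d → ℂ} (hF : ∀ j, Integrable (F j))
    (hs : Summable fun j => ∫ ξ, ‖F j ξ‖) (y : Eu d) :
    HasSum (fun j => evf (F j) y) (evf (fun ξ => ∑' j, F j ξ) y) := by
  have := hasSum_integral_of_summable_integral_norm (fun j => integrable_ev (hF j) y)
    (by simpa only [norm_mul, norm_cexp_dot, one_mul] using hs)
  simpa only [tsum_mul_left, evf] using this

/-- The bump. -/
noncomputable def chi (d : ℕ) : ContDiffBump (0 : Eu d) := ⟨1, 2, one_pos, one_lt_two⟩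

/-- Dyadic cutoffs at unit scale. -/
noncomputable def cut (d : ℕ) : ℕ → Eu d → ℂ
  | 0 => fun u => (chi d u : ℂ)
  | _ + 1 => fun u => (chi d u : ℂ) - (chi d ((2 : ℝ) • u) : ℂ)

theorem contDiff_chi : ContDiff ℝ ∞ fun u : Eu d => (chi d u : ℂ) :=
  Complex.ofRealCLM.contDiff.comp (chi d).contDiff

theorem contDiff_cut (j : ℕ) : ContDiff ℝ ∞ (cut d j) := by
  cases j with
  | zero => exact contDiff_chi
  | succ j => exact contDiff_chi.sub (contDiff_chi.comp (contDiff_const_smul (2 : ℝ)))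

theorem chi_zero {u : Eu d} (h : 2 ≤ ‖u‖) : chi d u = 0 :=
  (chi d).zero_of_le_dist (by simpa [chi] using h)

theorem chi_one {u : Eu d} (h : ‖u‖ ≤ 1) : chi d u = 1 :=
  (chi d).one_of_mem_closedBall (by simpa [chi] using h)

theorem tsupport_cut (j : ℕ) : tsupport (cut d j) ⊆ Metric.closedBall 0 2 := by
  apply closure_minimal _ Metric.isClosed_closedBall
  intro u hu
  by_contra h
  have h2 : 2 ≤ ‖u‖ := by
    simp only [Metric.mem_closedBall, dist_zero_right, not_le] at h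
    exact h.le
  apply hu
  cases j with
  | zero => simp [cut, chi_zero h2]
  | succ j =>
    have h3 : 2 ≤ ‖(2 : ℝ) • u‖ := by
      rw [norm_smul, Real.norm_two]; linarith
    simp [cut, chi_zero h2, chi_zero h3]

theorem tsupport_cut_succ (j : ℕ) : tsupport (cut d (j + 1)) ⊆ {u | 1 / 2 ≤ ‖u‖} := by
  apply closure_minimal _ (isClosed_le continuous_const continuous_norm)
  intro u hu
  by_contra h
  simp only [mem_ofPred_eq, not_le] at h
  apply hu
  have h3 : ‖(2 : ℝ) • u‖ ≤ 1 := by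
    rw [norm_smul, Real.norm_two]; linarith
  simp [cut, chi_one h3, chi_one (show ‖u‖ ≤ 1 by linarith)]

theorem exists_cut_bd (d N : ℕ) :
    ∃ K : ℝ, 0 ≤ K ∧ ∀ j, ∀ i ≤ N, ∀ u, ‖iteratedFDeriv ℝ i (cut d j) u‖ ≤ K := by
  obtain ⟨M0, h0⟩ := exists_bd (contDiff_cut (d := d) 0) (tsupport_cut 0) N
  obtain ⟨M1, h1⟩ := exists_bd (contDiff_cut (d := d) 1) (tsupport_cut 1) N
  refine ⟨max 0 (max M0 M1), le_max_left _ _, fun j i hi u => ?_⟩
  cases j with
  | zero => exact (h0 i hi u).trans ((le_max_left _ _).trans (le_max_right _ _))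
  | succ j => exact (h1 i hi u).trans ((le_max_right _ _).trans (le_max_right _ _))

theorem cut_scale (j : ℕ) {u : Eu d} (hu : u ∈ tsupport (cut d j)) :
    (2 : ℝ) ^ j / 2 ≤ 1 + ‖(2 : ℝ) ^ j • u‖ := by
  cases j with
  | zero => have := norm_nonneg ((2 : ℝ) ^ 0 • u); norm_num at this ⊢; linarith [norm_nonneg u]
  | succ j =>
    have h : 1 / 2 ≤ ‖u‖ := tsupport_cut_succ j hu
    rw [norm_smul, Real.norm_of_nonneg (by positivity)]
    have : (0 : ℝ) < 2 ^ (j + 1) := by positivity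
    nlinarith

theorem sum_cut (y : Eu d) (n : ℕ) :
    ∑ j ∈ Finset.range (n + 1), cut d j (((2 : ℝ) ^ j)⁻¹ • y)
      = (chi d (((2 : ℝ) ^ n)⁻¹ • y) : ℂ) := by
  induction n with
  | zero => simp [cut]
  | succ n ih =>
    rw [Finset.sum_range_succ, ih]
    have : (2 : ℝ) • ((2 : ℝ) ^ (n + 1))⁻¹ • y = ((2 : ℝ) ^ n)⁻¹ • y := by
      rw [smul_smul]; congr 1; rw [pow_succ]; field_simp
    simp only [cut, this]
    ring

/-- Dyadic pieces at unit scale. -/
noncomputable def piece (f : Eu d → ℂ) (j : ℕ) (u : Eu d) : ℂ :=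
  cut d j u * f ((2 : ℝ) ^ j • u)

theorem contDiff_piece {f : Eu d → ℂ} (hf : ContDiff ℝ ∞ f) (j : ℕ) : ContDiff ℝ ∞ (piece f j) :=
  (contDiff_cut j).mul (hf.comp (contDiff_const_smul _))

theorem tsupport_piece (f : Eu d → ℂ) (j : ℕ) : tsupport (piece f j) ⊆ Metric.closedBall 0 2 :=
  (tsupport_mul_subset_left (f := cut d j) (g := fun u => f ((2 : ℝ) ^ j • u))).trans
    (tsupport_cut j)

theorem scale_bd {a t x : ℝ} (ha : 0 < a) (ht : 0 < t) (hx : t / 2 ≤ x) {l N : ℕ} (hl : l ≤ N) :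
    t ^ l * x ^ (-(a + l)) ≤ 2 ^ (a + N) * t ^ (-a) := by
  have hl' : (l : ℝ) ≤ N := by exact_mod_cast hl
  have h1 : x ^ (-(a + l)) ≤ (t / 2) ^ (-(a + l)) :=
    Real.rpow_le_rpow_of_nonpos (by positivity) hx (by
      have : (0 : ℝ) ≤ l := Nat.cast_nonneg l
      linarith)
  have h2 : (t / 2) ^ (-(a + l)) = 2 ^ (a + l) * (t ^ (-a) * (t ^ l)⁻¹) := by
    rw [Real.div_rpow ht.le (by norm_num), Real.rpow_neg (by norm_num : (0 : ℝ) ≤ 2),
      neg_add, Real.rpow_add ht, Real.rpow_neg ht.le (l : ℝ), Real.rpow_natCast]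
    field_simp
  have h3 : (2 : ℝ) ^ (a + l) ≤ 2 ^ (a + N) :=
    Real.rpow_le_rpow_of_exponent_le (by norm_num) (by linarith)
  calc t ^ l * x ^ (-(a + l)) ≤ t ^ l * (2 ^ (a + l) * (t ^ (-a) * (t ^ l)⁻¹)) := by
        rw [← h2]; gcongr
    _ = 2 ^ (a + l) * t ^ (-a) := by field_simp
    _ ≤ _ := by gcongr

theorem exists_piece_bd {f : Eu d → ℂ} (hf : ContDiff ℝ ∞ f) {a : ℝ} (ha : 0 < a)
    (hb : ∀ j : ℕ, ∃ C : ℝ, ∀ y, ‖iteratedFDeriv ℝ j f y‖ ≤ C * (1 + ‖y‖) ^ (-(a + j))) (N : ℕ) :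
    ∃ K : ℝ, ∀ j, ∀ i ≤ N, ∀ u,
      ‖iteratedFDeriv ℝ i (piece f j) u‖ ≤ K * ((2 : ℝ) ^ (-a)) ^ j := by
  choose C hC using hb
  obtain ⟨K, hK0, hK⟩ := exists_cut_bd d N
  set C' : ℝ := ∑ l ∈ Finset.range (N + 1), |C l| with hC'
  have hC0 : 0 ≤ C' := Finset.sum_nonneg fun _ _ => abs_nonneg _
  have hCl : ∀ l ≤ N, C l ≤ C' := fun l hl => (le_abs_self _).trans
    (Finset.single_le_sum (f := fun i => |C i|) (fun _ _ => abs_nonneg _)
      (Finset.mem_range.2 (Nat.lt_succ_iff.2 hl)))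
  refine ⟨2 ^ N * (K * (C' * 2 ^ (a + N))), fun j i hi u => ?_⟩
  have ht : (0 : ℝ) < 2 ^ j := by positivity
  have hpow : ((2 : ℝ) ^ (-a)) ^ j = ((2 : ℝ) ^ j) ^ (-a) := by
    rw [← Real.rpow_natCast, ← Real.rpow_natCast, ← Real.rpow_mul (by norm_num),
      ← Real.rpow_mul (by norm_num), mul_comm]
  have hsm : ContDiff ℝ ∞ fun u : Eu d => f ((2 : ℝ) ^ j • u) := hf.comp (contDiff_const_smul _)
  have h1 := norm_iteratedFDeriv_mul_le (contDiff_cut (d := d) j) hsm u (n := i)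
    (by exact_mod_cast le_top)
  refine h1.trans ?_
  have hB : 0 ≤ C' * 2 ^ (a + N) * ((2 : ℝ) ^ (-a)) ^ j := by positivity
  calc ∑ l ∈ Finset.range (i + 1), (i.choose l : ℝ) * ‖iteratedFDeriv ℝ l (cut d j) u‖ *
          ‖iteratedFDeriv ℝ (i - l) (fun u : Eu d => f ((2 : ℝ) ^ j • u)) u‖
      ≤ ∑ l ∈ Finset.range (i + 1), (i.choose l : ℝ) *
          (K * (C' * 2 ^ (a + N) * ((2 : ℝ) ^ (-a)) ^ j)) := by
        apply Finset.sum_le_sum
        intro l hl
        have hl' : l ≤ i := Nat.lt_succ_iff.1 (Finset.mem_range.1 hl)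
        rw [mul_assoc]
        apply mul_le_mul_of_nonneg_left _ (Nat.cast_nonneg _)
        by_cases hu : u ∈ tsupport (cut d j)
        · apply mul_le_mul (hK j l (hl'.trans hi) u) _ (norm_nonneg _) hK0
          rw [iteratedFDeriv_comp_const_smul _ (hf.of_le (le_infty _)), norm_smul,
            Real.norm_of_nonneg (by positivity), hpow]
          have h2 := hC (i - l) ((2 : ℝ) ^ j • u)
          have h3 := scale_bd ha ht (cut_scale j hu) (l := i - l) (N := N) (by omega)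
          calc ((2 : ℝ) ^ j) ^ (i - l) * ‖iteratedFDeriv ℝ (i - l) f ((2 : ℝ) ^ j • u)‖
              ≤ ((2 : ℝ) ^ j) ^ (i - l) *
                (C' * (1 + ‖(2 : ℝ) ^ j • u‖) ^ (-(a + ((i - l : ℕ) : ℝ)))) := by
                gcongr
                refine h2.trans ?_
                gcongr
                exact hCl _ (by omega)
            _ = C' * (((2 : ℝ) ^ j) ^ (i - l) *
                (1 + ‖(2 : ℝ) ^ j • u‖) ^ (-(a + ((i - l : ℕ) : ℝ)))) := by ring
            _ ≤ C' * (2 ^ (a + N) * ((2 : ℝ) ^ j) ^ (-a)) := by gcongr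
            _ = _ := by ring
        · have : iteratedFDeriv ℝ l (cut d j) u = 0 := by
            by_contra h
            exact hu (support_iteratedFDeriv_subset l h)
          rw [this, norm_zero, zero_mul]
          positivity
    _ = 2 ^ i * (K * (C' * 2 ^ (a + N) * ((2 : ℝ) ^ (-a)) ^ j)) := by
        rw [← Finset.sum_mul]
        congr 1
        exact_mod_cast Nat.sum_range_choose i
    _ ≤ 2 ^ N * (K * (C' * 2 ^ (a + N) * ((2 : ℝ) ^ (-a)) ^ j)) := by
        gcongr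
        norm_num
    _ = _ := by ring

theorem exists_allMom {f : Eu d → ℂ} (hf : ContDiff ℝ ∞ f) {a : ℝ} (ha : 0 < a)
    (hb : ∀ j : ℕ, ∃ C : ℝ, ∀ y, ‖iteratedFDeriv ℝ j f y‖ ≤ C * (1 + ‖y‖) ^ (-(a + j))) :
    ∃ F : Fq d → ℂ, AllMom F ∧ ∀ y, evf F y = f y := by
  have h2 : ∀ j : ℕ, (1 : ℝ) ≤ 2 ^ j := fun j => one_le_pow₀ (by norm_num)
  have hF : ∀ j, AllMom (invF (2 ^ j) (piece f j)) := fun j =>
    allMom_invF (contDiff_piece hf j) (tsupport_piece f j) (h2 j)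
  have hs : ∀ k, Summable fun j => ∫ ξ, ‖(wt k ξ : ℂ) * invF (2 ^ j) (piece f j) ξ‖ := by
    intro k
    obtain ⟨N, C, -, hC⟩ := exists_invF_bound d k
    obtain ⟨K, hK⟩ := exists_piece_bd hf ha hb N
    have hr : (2 : ℝ) ^ (-a) < 1 :=
      Real.rpow_lt_one_of_one_lt_of_neg (by norm_num) (by linarith)
    refine Summable.of_nonneg_of_le (fun j => integral_nonneg fun _ => norm_nonneg _)
      (fun j => hC _ (contDiff_piece hf j) (tsupport_piece f j) _ (hK j) _ (h2 j)) ?_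
    exact ((summable_geometric_of_lt_one (by positivity) hr).mul_left K).mul_left C
  refine ⟨fun ξ => ∑' j, invF (2 ^ j) (piece f j) ξ, allMom_tsum hF hs, fun y => ?_⟩
  have h3 := hasSum_evf (fun j => AllMom.integrable (hF j)) (by simpa [wt] using hs 0) y
  have h4 : ∀ j : ℕ, evf (invF (2 ^ j) (piece f j)) y = cut d j (((2 : ℝ) ^ j)⁻¹ • y) * f y := by
    intro j
    rw [evf_invF (contDiff_piece hf j) (tsupport_piece f j) (by positivity), piece, smul_smul,
      mul_inv_cancel₀ (by positivity), one_smul]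
  have h5 := h3.tendsto_sum_nat.comp (tendsto_add_atTop_nat 1)
  refine tendsto_nhds_unique h5 (tendsto_const_nhds.congr' ?_)
  have h6 : ∀ᶠ n : ℕ in atTop, ‖y‖ ≤ (2 : ℝ) ^ n :=
    (tendsto_pow_atTop_atTop_of_one_lt (by norm_num : (1 : ℝ) < 2)).eventually_ge_atTop _
  filter_upwards [h6] with n hn
  simp only [Function.comp_apply, h4]
  rw [← Finset.sum_mul, sum_cut, chi_one]
  · simp
  · rw [norm_smul, norm_inv, Real.norm_of_nonneg (by positivity), inv_mul_le_iff₀ (by positivity)]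
    simpa using hn

end Vale.Agent.P139Z.Sym
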