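import Vale.Agent.P139Z.Defs

/-!
Fourier inversion for rescaled compactly supported smooth functions, with uniform weighted bounds.
-/

open Set Filter Topology MeasureTheory Complex
open scoped NNReal ENNReal ComplexConjugate ContDiff FourierTransform Real

set_option linter.unusedSectionVars false

namespace Vale.Agent.P139Z.Sym

variable {d : ℕ}

theorem integral_scl {E : Type*} [NormedAddCommGroup E] [NormedSpace ℝ E] (ψ : Eu d → E) {c : ℝ}
    (hc : 0 < c) :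
    ∫ ξ : Fq d, c ^ d • ψ (WithLp.toLp 2 (c • ξ)) = ∫ v, ψ v := by
  rw [integral_smul]
  have h1 := Measure.integral_comp_smul (volume : Measure (Fq d))
    (fun ξ : Fq d => ψ (WithLp.toLp 2 ξ)) c
  rw [h1, (PiLp.volume_preserving_toLp (Fin d)).integral_comp
    (MeasurableEquiv.toLp 2 _).measurableEmbedding, smul_smul]
  have : Module.finrank ℝ (Fq d) = d := by simp
  rw [this, abs_of_pos (by positivity), mul_inv_cancel₀ (by positivity), one_smul]

theorem integrable_scl {E : Type*} [NormedAddCommGroup E] {ψ : Eu d → E} (hψ : Integrable ψ)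
    {c : ℝ} (hc : 0 < c) : Integrable fun ξ : Fq d => ψ (WithLp.toLp 2 (c • ξ)) := by
  have h1 : Integrable fun ξ : Fq d => ψ (WithLp.toLp 2 ξ) :=
    ((PiLp.volume_preserving_toLp (Fin d)).integrable_comp_emb
      (MeasurableEquiv.toLp 2 _).measurableEmbedding).2 hψ
  exact (integrable_comp_smul_iff volume (fun ξ : Fq d => ψ (WithLp.toLp 2 ξ)) hc.ne').2 h1

theorem norm_le_toLp (ξ : Fq d) : ‖ξ‖ ≤ ‖(WithLp.toLp 2 ξ : Eu d)‖ := by
  rw [pi_norm_le_iff_of_nonneg (norm_nonneg _)]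
  intro i
  exact PiLp.norm_apply_le (WithLp.toLp 2 ξ : Eu d) i

theorem wt_pos (k : ℕ) (ξ : Fq d) : 0 < wt k ξ := by
  unfold wt; positivity

theorem continuous_wt (k : ℕ) : Continuous (wt k : Fq d → ℝ) := by
  unfold wt; fun_prop

theorem wt_le_scl (k : ℕ) {t : ℝ} (ht : 1 ≤ t) (ξ : Fq d) :
    wt k ξ ≤ 7 ^ k * (1 + ‖(WithLp.toLp 2 ((t / (2 * π)) • ξ) : Eu d)‖) ^ k := by
  rw [← mul_pow]
  unfold wt
  apply pow_le_pow_left₀ (by positivity)
  have h1 := norm_le_toLp ((t / (2 * π)) • ξ)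
  have hπ := Real.pi_pos
  have hπ' : π < 3.15 := Real.pi_lt_d2
  rw [norm_smul, Real.norm_of_nonneg (by positivity)] at h1
  have h2 : 1 / 7 ≤ t / (2 * π) := by
    rw [div_le_div_iff₀ (by norm_num) (by positivity)]
    nlinarith
  have h3 : 1 / 7 * ‖ξ‖ ≤ t / (2 * π) * ‖ξ‖ := mul_le_mul_of_nonneg_right h2 (norm_nonneg _)
  nlinarith [norm_nonneg ξ]

/-- The Fourier-side function of `y ↦ g (y / t)`. -/
noncomputable def invF (t : ℝ) (g : Eu d → ℂ) (ξ : Fq d) : ℂ :=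
  (t / (2 * π)) ^ d • 𝓕 g (WithLp.toLp 2 ((t / (2 * π)) • ξ))

theorem one_add_pow_le (x : ℝ) (hx : 0 ≤ x) (n : ℕ) : (1 + x) ^ n ≤ 2 ^ n * (1 + x ^ n) := by
  rcases le_total x 1 with h | h
  · calc (1 + x) ^ n ≤ 2 ^ n := pow_le_pow_left₀ (by positivity) (by linarith) n
      _ ≤ 2 ^ n * (1 + x ^ n) := le_mul_of_one_le_right (by positivity)
          (by have := pow_nonneg hx n; linarith)
  · calc (1 + x) ^ n ≤ (2 * x) ^ n := pow_le_pow_left₀ (by positivity) (by linarith) n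
      _ = 2 ^ n * x ^ n := mul_pow _ _ _
      _ ≤ 2 ^ n * (1 + x ^ n) := by gcongr; linarith

section

variable {g : Eu d → ℂ} (hg : ContDiff ℝ ∞ g) (hs : tsupport g ⊆ Metric.closedBall 0 2)
include hg hs

theorem hcs : HasCompactSupport g :=
  (isCompact_closedBall (0 : Eu d) 2).of_isClosed_subset (isClosed_tsupport g) hs

theorem integrable_deriv (n : ℕ) : Integrable fun v => ‖iteratedFDeriv ℝ n g v‖ :=
  ((hg.continuous_iteratedFDeriv (m := n) (by exact_mod_cast le_top)).integrable_of_hasCompactSupport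
    ((hcs hg hs).iteratedFDeriv n)).norm

theorem integral_deriv_le {n : ℕ} {M : ℝ} (hM : ∀ u, ‖iteratedFDeriv ℝ n g u‖ ≤ M) :
    ∫ v, ‖iteratedFDeriv ℝ n g v‖ ≤ M * (volume (Metric.closedBall (0 : Eu d) 2)).toReal := by
  have h1 : ∫ v in Metric.closedBall (0 : Eu d) 2, ‖iteratedFDeriv ℝ n g v‖
      = ∫ v, ‖iteratedFDeriv ℝ n g v‖ := by
    apply setIntegral_eq_integral_of_forall_compl_eq_zero
    intro x hx
    rw [norm_eq_zero]
    by_contra h
    exact hx (hs (support_iteratedFDeriv_subset n h))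
  rw [← h1]
  have h2 := norm_setIntegral_le_of_norm_le_const (μ := (volume : Measure (Eu d)))
    (s := Metric.closedBall (0 : Eu d) 2) (f := fun v => ‖iteratedFDeriv ℝ n g v‖) (C := M)
    measure_closedBall_lt_top (fun x _ => by rw [norm_norm]; exact hM x)
  exact (le_abs_self _).trans h2

theorem pow_mul_fourier_le (n : ℕ) {M : ℝ} (hM : ∀ i ≤ n, ∀ u, ‖iteratedFDeriv ℝ i g u‖ ≤ M)
    (w : Eu d) : ‖w‖ ^ n * ‖𝓕 g w‖ ≤
      2 ^ n * ((n + 1) * (M * (volume (Metric.closedBall (0 : Eu d) 2)).toReal)) := by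
  have h := Real.pow_mul_norm_iteratedFDeriv_fourier_le (K := 0) (N := ⊤) (f := g) hg
    (fun k j hk _ => by
      have : k = 0 := by exact_mod_cast nonpos_iff_eq_zero.1 hk
      subst this
      simpa using integrable_deriv hg hs j) (k := 0) (n := n) le_rfl le_top w
  simp only [norm_iteratedFDeriv_zero, pow_zero, one_mul, Nat.cast_zero, mul_zero, zero_add,
    Finset.range_one, Finset.singleton_product, Finset.sum_map, Function.Embedding.coeFn_mk] at h
  refine h.trans ?_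
  gcongr
  calc ∑ x ∈ Finset.range (n + 1), ∫ v, ‖iteratedFDeriv ℝ x g v‖
      ≤ ∑ _x ∈ Finset.range (n + 1), M * (volume (Metric.closedBall (0 : Eu d) 2)).toReal := by
        apply Finset.sum_le_sum
        intro i hi
        exact integral_deriv_le hg hs (hM i (Nat.lt_succ_iff.1 (Finset.mem_range.1 hi)))
    _ = _ := by simp

theorem continuous_four : Continuous (𝓕 g) :=
  VectorFourier.fourierIntegral_continuous Real.continuous_fourierChar continuous_inner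
    (hg.continuous.integrable_of_hasCompactSupport (hcs hg hs))

theorem wt_fourier_le (k : ℕ) {M : ℝ}
    (hM : ∀ i ≤ k + (d + 1), ∀ u, ‖iteratedFDeriv ℝ i g u‖ ≤ M) (w : Eu d) :
    (1 + ‖w‖) ^ k * ‖𝓕 g w‖ ≤
      (2 ^ (k + (d + 1)) * (1 + 2 ^ (k + (d + 1)) * ((k + (d + 1) : ℕ) + 1)) *
        (volume (Metric.closedBall (0 : Eu d) 2)).toReal * M) * (1 + ‖w‖) ^ (-((d : ℝ) + 1)) := by
  have h0 := pow_mul_fourier_le hg hs 0 (fun i hi => hM i (by omega)) w
  have h1 := pow_mul_fourier_le hg hs (k + (d + 1)) hM w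
  have h2 := one_add_pow_le ‖w‖ (norm_nonneg w) (k + (d + 1))
  have hw : 0 < 1 + ‖w‖ := by positivity
  have h3 : (1 + ‖w‖) ^ (-((d : ℝ) + 1)) = ((1 + ‖w‖) ^ (d + 1))⁻¹ := by
    rw [Real.rpow_neg hw.le, ← Real.rpow_natCast]; push_cast; rfl
  rw [h3, ← div_eq_mul_inv, le_div_iff₀ (by positivity)]
  simp only [pow_zero, one_mul, Nat.cast_zero, zero_add] at h0
  calc (1 + ‖w‖) ^ k * ‖𝓕 g w‖ * (1 + ‖w‖) ^ (d + 1)
      = (1 + ‖w‖) ^ (k + (d + 1)) * ‖𝓕 g w‖ := by rw [pow_add _ k]; ring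
    _ ≤ 2 ^ (k + (d + 1)) * (1 + ‖w‖ ^ (k + (d + 1))) * ‖𝓕 g w‖ := by gcongr
    _ = 2 ^ (k + (d + 1)) * (‖𝓕 g w‖ + ‖w‖ ^ (k + (d + 1)) * ‖𝓕 g w‖) := by ring
    _ ≤ 2 ^ (k + (d + 1)) * (M * (volume (Metric.closedBall (0 : Eu d) 2)).toReal +
        2 ^ (k + (d + 1)) * (((k + (d + 1) : ℕ) + 1) *
          (M * (volume (Metric.closedBall (0 : Eu d) 2)).toReal))) := by gcongr
    _ = _ := by ring

theorem exists_bd (n : ℕ) : ∃ M : ℝ, ∀ i ≤ n, ∀ u, ‖iteratedFDeriv ℝ i g u‖ ≤ M := by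
  have h : ∀ i : ℕ, ∃ M : ℝ, ∀ u, ‖iteratedFDeriv ℝ i g u‖ ≤ M := fun i =>
    (hg.continuous_iteratedFDeriv (m := i) (by exact_mod_cast le_top)).bounded_above_of_compact_support
      ((hcs hg hs).iteratedFDeriv i)
  choose M hM using h
  refine ⟨∑ i ∈ Finset.range (n + 1), |M i|, fun i hi u => ?_⟩
  exact ((hM i u).trans (le_abs_self _)).trans
    (Finset.single_le_sum (f := fun i => |M i|) (fun _ _ => abs_nonneg _)
      (Finset.mem_range.2 (Nat.lt_succ_iff.2 hi)))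

theorem integrable_wt_fourier (k : ℕ) : Integrable fun w : Eu d => (1 + ‖w‖) ^ k * ‖𝓕 g w‖ := by
  obtain ⟨M, hM⟩ := exists_bd hg hs (k + (d + 1))
  have hi : Integrable fun w : Eu d => (1 + ‖w‖) ^ (-((d : ℝ) + 1)) :=
    integrable_one_add_norm (by simp)
  exact (hi.const_mul _).mono' ((by fun_prop : Continuous fun w : Eu d => (1 + ‖w‖) ^ k).mul
      (continuous_four hg hs).norm).aestronglyMeasurable (Eventually.of_forall fun w =>
        (Real.norm_of_nonneg (by positivity)).trans_le (wt_fourier_le hg hs k hM w))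

theorem integrable_four : Integrable (𝓕 g) := by
  refine (integrable_wt_fourier hg hs 0).mono' (continuous_four hg hs).aestronglyMeasurable
    (Eventually.of_forall fun w => ?_)
  simp

theorem continuous_invF (t : ℝ) : Continuous (invF t g) := by
  unfold invF
  have := continuous_four hg hs
  fun_prop

theorem wt_invF_le (k : ℕ) {t : ℝ} (ht : 1 ≤ t) (ξ : Fq d) :
    ‖(wt k ξ : ℂ) * invF t g ξ‖ ≤ 7 ^ k * ((t / (2 * π)) ^ d •
      (fun w : Eu d => (1 + ‖w‖) ^ k * ‖𝓕 g w‖) (WithLp.toLp 2 ((t / (2 * π)) • ξ))) := by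
  have hπ := Real.pi_pos
  have h1 := wt_le_scl k ht ξ
  rw [norm_mul, Complex.norm_real, Real.norm_of_nonneg (wt_pos k ξ).le, invF, norm_smul,
    Real.norm_of_nonneg (by positivity), smul_eq_mul]
  calc wt k ξ * ((t / (2 * π)) ^ d * ‖𝓕 g (WithLp.toLp 2 ((t / (2 * π)) • ξ))‖)
      ≤ 7 ^ k * (1 + ‖(WithLp.toLp 2 ((t / (2 * π)) • ξ) : Eu d)‖) ^ k *
        ((t / (2 * π)) ^ d * ‖𝓕 g (WithLp.toLp 2 ((t / (2 * π)) • ξ))‖) := by gcongr
    _ = _ := by ring

theorem allMom_invF {t : ℝ} (ht : 1 ≤ t) : AllMom (invF t g) := by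
  intro k
  have hπ := Real.pi_pos
  have hc : 0 < t / (2 * π) := by positivity
  have h1 := ((integrable_scl (integrable_wt_fourier hg hs k) hc).smul
    ((t / (2 * π)) ^ d)).const_mul (7 ^ k)
  refine h1.mono' ?_ (Eventually.of_forall fun ξ => wt_invF_le hg hs k ht ξ)
  exact ((Complex.continuous_ofReal.comp (continuous_wt k)).mul
    (continuous_invF hg hs t)).aestronglyMeasurable

theorem evf_invF {t : ℝ} (ht : 0 < t) (y : Eu d) : evf (invF t g) y = g (t⁻¹ • y) := by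
  have hπ := Real.pi_pos
  have hc : 0 < t / (2 * π) := by positivity
  have h1 := (hg.continuous.integrable_of_hasCompactSupport (hcs hg hs)).fourierInv_fourier_eq
    (integrable_four hg hs) (v := t⁻¹ • y) hg.continuous.continuousAt
  rw [← h1, Real.fourierInv_eq', ← integral_scl _ hc]
  unfold evf invF
  congr 1
  ext ξ
  have h2 : (2 * π * inner ℝ (WithLp.toLp 2 ((t / (2 * π)) • ξ) : Eu d) (t⁻¹ • y) : ℝ)
      = dot ξ y := by
    simp only [PiLp.inner_apply, dot, Finset.mul_sum]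
    apply Finset.sum_congr rfl
    intro i _
    simp only [PiLp.smul_apply, smul_eq_mul, Pi.smul_apply, RCLike.inner_apply, conj_trivial]
    field_simp
  rw [h2]
  simp only [smul_eq_mul, Complex.real_smul]
  rw [mul_comm I]
  ring

end

/-- Uniform weighted bound. -/
theorem exists_invF_bound (d k : ℕ) : ∃ (N : ℕ) (C : ℝ), 0 ≤ C ∧ ∀ (g : Eu d → ℂ),
    ContDiff ℝ ∞ g → tsupport g ⊆ Metric.closedBall 0 2 → ∀ M : ℝ,
      (∀ i ≤ N, ∀ u, ‖iteratedFDeriv ℝ i g u‖ ≤ M) → ∀ t : ℝ, 1 ≤ t →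
        ∫ ξ, ‖(wt k ξ : ℂ) * invF t g ξ‖ ≤ C * M := by
  have hi : Integrable fun w : Eu d => (1 + ‖w‖) ^ (-((d : ℝ) + 1)) :=
    integrable_one_add_norm (by simp)
  refine ⟨k + (d + 1), 7 ^ k * ((2 ^ (k + (d + 1)) * (1 + 2 ^ (k + (d + 1)) *
    ((k + (d + 1) : ℕ) + 1)) * (volume (Metric.closedBall (0 : Eu d) 2)).toReal) *
      ∫ w : Eu d, (1 + ‖w‖) ^ (-((d : ℝ) + 1))), ?_, ?_⟩
  · have : 0 ≤ ∫ w : Eu d, (1 + ‖w‖) ^ (-((d : ℝ) + 1)) :=
      integral_nonneg fun w => by positivity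
    positivity
  intro g hg hs M hM t ht
  have hπ := Real.pi_pos
  have hc : 0 < t / (2 * π) := by positivity
  have h1 := ((integrable_scl (integrable_wt_fourier hg hs k) hc).smul
    ((t / (2 * π)) ^ d)).const_mul (7 ^ k)
  calc ∫ ξ, ‖(wt k ξ : ℂ) * invF t g ξ‖
      ≤ ∫ ξ : Fq d, 7 ^ k * ((t / (2 * π)) ^ d •
        (fun w : Eu d => (1 + ‖w‖) ^ k * ‖𝓕 g w‖) (WithLp.toLp 2 ((t / (2 * π)) • ξ))) :=
        integral_mono (allMom_invF hg hs ht k).norm h1 fun ξ => wt_invF_le hg hs k ht ξ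
    _ = 7 ^ k * ∫ w : Eu d, (1 + ‖w‖) ^ k * ‖𝓕 g w‖ := by
        rw [integral_const_mul, integral_scl (fun w : Eu d => (1 + ‖w‖) ^ k * ‖𝓕 g w‖) hc]
    _ ≤ 7 ^ k * ∫ w : Eu d, (2 ^ (k + (d + 1)) * (1 + 2 ^ (k + (d + 1)) * ((k + (d + 1) : ℕ) + 1)) *
        (volume (Metric.closedBall (0 : Eu d) 2)).toReal * M) * (1 + ‖w‖) ^ (-((d : ℝ) + 1)) := by
        gcongr ?_ * ?_
        exact integral_mono (integrable_wt_fourier hg hs k) (hi.const_mul _)
          fun w => wt_fourier_le hg hs k hM w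
    _ = _ := by rw [integral_const_mul]; ring

end Vale.Agent.P139Z.Sym
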