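import Vale.Agent.P139Z.Sym.Dyadic

/-!
Symbol bounds for radial functions.
-/

open Set Filter Topology MeasureTheory Complex
open scoped NNReal ComplexConjugate ContDiff Real

namespace Vale.Agent.P139Z.Sym

variable {d : ℕ}

theorem norm_iter_smul {s : ℝ} (hs : 0 < s) {y : Eu d} (hy : ‖y‖ ≤ s) (i : ℕ) :
    ‖iteratedFDeriv ℝ i (fun z : Eu d => s⁻¹ • z) y‖ ≤ s⁻¹ ^ i := by
  have hL : fderiv ℝ (fun z : Eu d => s⁻¹ • z)
      = fun _ => s⁻¹ • ContinuousLinearMap.id ℝ (Eu d) := by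
    ext1 z
    exact ((hasFDerivAt_id z).const_smul s⁻¹).fderiv
  rcases i with _ | _ | i
  · rw [norm_iteratedFDeriv_zero, norm_smul, norm_inv, Real.norm_of_nonneg hs.le, pow_zero,
      inv_mul_le_iff₀ hs]
    simpa using hy
  · rw [← norm_iteratedFDeriv_fderiv, hL, norm_iteratedFDeriv_zero, norm_smul, norm_inv,
      Real.norm_of_nonneg hs.le, zero_add, pow_one]
    exact mul_le_of_le_one_right (by positivity) ContinuousLinearMap.norm_id_le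
  · rw [← norm_iteratedFDeriv_fderiv, hL, iteratedFDeriv_const_of_ne (Nat.succ_ne_zero i)]
    simp only [Pi.zero_apply, norm_zero]
    positivity

theorem norm_iter_sq {s : ℝ} (hs : 0 < s) {y : Eu d} (hy : ‖y‖ ≤ s) (n : ℕ) :
    ‖iteratedFDeriv ℝ n (fun z : Eu d => ‖s⁻¹ • z‖ ^ 2) y‖ ≤ (2 * s⁻¹) ^ n := by
  have hsm : ContDiff ℝ ∞ fun z : Eu d => s⁻¹ • z := contDiff_const_smul _
  have h1 := (innerSL ℝ (E := Eu d)).norm_iteratedFDeriv_le_of_bilinear_of_le_one hsm hsm y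
    (n := n) (le_infty n) (norm_innerSL_le _)
  have h0 : (fun z : Eu d => ‖s⁻¹ • z‖ ^ 2)
      = fun z : Eu d => innerSL ℝ (s⁻¹ • z) (s⁻¹ • z) := by
    ext z
    rw [innerSL_apply_apply, real_inner_self_eq_norm_sq]
  rw [h0]
  refine h1.trans ?_
  calc ∑ i ∈ Finset.range (n + 1), (n.choose i : ℝ) *
          ‖iteratedFDeriv ℝ i (fun z : Eu d => s⁻¹ • z) y‖ *
          ‖iteratedFDeriv ℝ (n - i) (fun z : Eu d => s⁻¹ • z) y‖
      ≤ ∑ i ∈ Finset.range (n + 1), (n.choose i : ℝ) * s⁻¹ ^ n := by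
        apply Finset.sum_le_sum
        intro i hi
        have hi' : i ≤ n := Nat.lt_succ_iff.1 (Finset.mem_range.1 hi)
        rw [mul_assoc]
        apply mul_le_mul_of_nonneg_left _ (Nat.cast_nonneg _)
        calc _ ≤ s⁻¹ ^ i * s⁻¹ ^ (n - i) :=
              mul_le_mul (norm_iter_smul hs hy i) (norm_iter_smul hs hy _) (norm_nonneg _)
                (by positivity)
          _ = _ := by rw [← pow_add, Nat.add_sub_cancel' hi']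
    _ = (2 * s⁻¹) ^ n := by
        rw [← Finset.sum_mul, mul_pow]
        congr 1
        exact_mod_cast Nat.sum_range_choose n

theorem rad_bd {a r : ℝ} (hr : 0 ≤ r) {i j : ℕ} (hi : i ≤ j) :
    ((1 + r) ^ 2) ^ i * (1 + r ^ 2) ^ (-(a + i)) ≤ 2 ^ j * (2 ^ |a| * (1 + r) ^ (-(2 * a))) := by
  have hx : 0 < 1 + r ^ 2 := by positivity
  have hs : 0 < 1 + r := by positivity
  have h1 : (1 + r) ^ 2 ≤ 2 * (1 + r ^ 2) := by nlinarith [sq_nonneg (r - 1)]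
  have h2 : 1 + r ^ 2 ≤ (1 + r) ^ 2 := by nlinarith
  have h3 : (1 + r) ^ (-(2 * a)) = ((1 + r) ^ 2) ^ (-a) := by
    rw [← Real.rpow_natCast (1 + r) 2, ← Real.rpow_mul hs.le]
    congr 1
    push_cast; ring
  have h4 : (1 + r ^ 2) ^ (-a) ≤ 2 ^ |a| * (1 + r) ^ (-(2 * a)) := by
    rw [h3]
    rcases le_total 0 a with ha | ha
    · rw [abs_of_nonneg ha]
      calc (1 + r ^ 2) ^ (-a) ≤ ((1 + r) ^ 2 / 2) ^ (-a) :=
            Real.rpow_le_rpow_of_nonpos (by positivity) (by linarith) (by linarith)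
        _ = _ := by
            rw [Real.div_rpow (by positivity) (by norm_num),
              Real.rpow_neg (by norm_num : (0 : ℝ) ≤ 2)]
            field_simp
    · calc (1 + r ^ 2) ^ (-a) ≤ ((1 + r) ^ 2) ^ (-a) :=
            Real.rpow_le_rpow hx.le h2 (by linarith)
        _ ≤ _ := le_mul_of_one_le_left (by positivity)
            (Real.one_le_rpow (by norm_num) (abs_nonneg a))
  have h5 : (1 + r ^ 2) ^ (-(a + i)) = (1 + r ^ 2) ^ (-a) * ((1 + r ^ 2) ^ i)⁻¹ := by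
    rw [neg_add, Real.rpow_add hx, Real.rpow_neg hx.le (i : ℝ), Real.rpow_natCast]
  calc ((1 + r) ^ 2) ^ i * (1 + r ^ 2) ^ (-(a + i))
      ≤ (2 * (1 + r ^ 2)) ^ i * (1 + r ^ 2) ^ (-(a + i)) := by gcongr
    _ = 2 ^ i * (1 + r ^ 2) ^ (-a) := by rw [h5, mul_pow]; field_simp
    _ ≤ _ := by gcongr; norm_num

theorem radial {G : ℝ → ℂ} (hG : ContDiff ℝ ∞ G) {a : ℝ}
    (hb : ∀ j : ℕ, ∃ C : ℝ, ∀ ρ : ℝ, 0 ≤ ρ → ‖iteratedDeriv j G ρ‖ ≤ C * (1 + ρ) ^ (-(a + j)))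
    (j : ℕ) : ∃ C : ℝ, ∀ y : Eu d,
      ‖iteratedFDeriv ℝ j (fun z : Eu d => G (‖z‖ ^ 2)) y‖
        ≤ C * (1 + ‖y‖) ^ (-(2 * a + j)) := by
  choose C hC using hb
  set C' : ℝ := ∑ l ∈ Finset.range (j + 1), |C l| with hC'
  have hC0 : 0 ≤ C' := Finset.sum_nonneg fun _ _ => abs_nonneg _
  have hCl : ∀ l ≤ j, C l ≤ C' := fun l hl => (le_abs_self _).trans
    (Finset.single_le_sum (f := fun i => |C i|) (fun _ _ => abs_nonneg _)
      (Finset.mem_range.2 (Nat.lt_succ_iff.2 hl)))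
  refine ⟨j.factorial * (C' * (2 ^ j * 2 ^ |a|)) * 2 ^ j, fun y => ?_⟩
  set s : ℝ := 1 + ‖y‖ with hs
  have hs0 : 0 < s := by positivity
  have hy : ‖y‖ ≤ s := by rw [hs]; linarith
  have hsq : ∀ z : Eu d, s ^ 2 * ‖s⁻¹ • z‖ ^ 2 = ‖z‖ ^ 2 := by
    intro z
    rw [norm_smul, norm_inv, Real.norm_of_nonneg hs0.le]
    field_simp
  have h1 : (fun z : Eu d => G (‖z‖ ^ 2))
      = (fun ρ => G (s ^ 2 * ρ)) ∘ fun z : Eu d => ‖s⁻¹ • z‖ ^ 2 := by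
    ext z
    simp only [Function.comp_apply, hsq]
  have hg : ContDiff ℝ ∞ fun ρ => G (s ^ 2 * ρ) := hG.comp (contDiff_const.mul contDiff_id)
  have hf : ContDiff ℝ ∞ fun z : Eu d => ‖s⁻¹ • z‖ ^ 2 :=
    (contDiff_norm_sq ℝ).comp (contDiff_const_smul _)
  have h2 := norm_iteratedFDeriv_comp_le hg hf (le_infty j) y
    (C := C' * (2 ^ j * (2 ^ |a| * s ^ (-(2 * a))))) (D := 2 * s⁻¹) ?_
    (fun i _ _ => norm_iter_sq hs0 hy i)
  · rw [h1]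
    refine h2.trans (le_of_eq ?_)
    rw [neg_add, Real.rpow_add hs0, Real.rpow_neg hs0.le (j : ℝ), Real.rpow_natCast, mul_pow,
      inv_pow]
    ring
  · intro i hi
    rw [norm_iteratedFDeriv_eq_norm_iteratedDeriv,
      iteratedDeriv_comp_const_smul (hG.of_le (le_infty i)), norm_smul, hsq,
      Real.norm_of_nonneg (by positivity)]
    calc (s ^ 2) ^ i * ‖iteratedDeriv i G (‖y‖ ^ 2)‖
        ≤ (s ^ 2) ^ i * (C' * (1 + ‖y‖ ^ 2) ^ (-(a + i))) := by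
          gcongr
          refine (hC i _ (by positivity)).trans ?_
          gcongr
          exact hCl i hi
      _ = C' * ((s ^ 2) ^ i * (1 + ‖y‖ ^ 2) ^ (-(a + i))) := by ring
      _ ≤ _ := mul_le_mul_of_nonneg_left (rad_bd (norm_nonneg y) hi) hC0

/-- The time-translation profile. -/
noncomputable def DG (Λ : ℂ) (G : ℝ → ℂ) (ρ : ℝ) : ℂ := Λ * G ρ + ρ * deriv G ρ

theorem contDiff_deriv {G : ℝ → ℂ} (hG : ContDiff ℝ ∞ G) : ContDiff ℝ ∞ (deriv G) :=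
  (contDiff_infty_iff_deriv.1 hG).2

theorem hasDerivAt_of {G : ℝ → ℂ} (hG : ContDiff ℝ ∞ G) (ρ : ℝ) : HasDerivAt G (deriv G ρ) ρ :=
  ((contDiff_infty_iff_deriv.1 hG).1 ρ).hasDerivAt

theorem contDiff_DG (Λ : ℂ) {G : ℝ → ℂ} (hG : ContDiff ℝ ∞ G) : ContDiff ℝ ∞ (DG Λ G) :=
  (contDiff_const.mul hG).add (Complex.ofRealCLM.contDiff.mul (contDiff_deriv hG))

theorem hasDerivAt_ofReal' (ρ : ℝ) : HasDerivAt (fun t : ℝ => (t : ℂ)) 1 ρ :=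
  Complex.ofRealCLM.hasDerivAt

theorem deriv_DG (Λ : ℂ) {G : ℝ → ℂ} (hG : ContDiff ℝ ∞ G) :
    deriv (DG Λ G) = DG (Λ + 1) (deriv G) := by
  ext ρ
  have h := ((hasDerivAt_of hG ρ).const_mul Λ).add
    ((hasDerivAt_ofReal' ρ).mul (hasDerivAt_of (contDiff_deriv hG) ρ))
  have h' : HasDerivAt (DG Λ G) _ ρ := h
  rw [h'.deriv, DG]
  ring

theorem iteratedDeriv_DG (j : ℕ) : ∀ (Λ : ℂ) {G : ℝ → ℂ}, ContDiff ℝ ∞ G → ∀ ρ : ℝ,
    iteratedDeriv j (DG Λ G) ρ = (Λ + j) * iteratedDeriv j G ρ + ρ * iteratedDeriv (j + 1) G ρ := by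
  induction j with
  | zero => intro Λ G _ ρ; simp [DG]
  | succ j ih =>
    intro Λ G hG ρ
    rw [iteratedDeriv_succ', deriv_DG Λ hG, ih _ (contDiff_deriv hG), ← iteratedDeriv_succ',
      ← iteratedDeriv_succ']
    push_cast
    ring

theorem symbol_DG (Λ : ℂ) {G : ℝ → ℂ} (hG : ContDiff ℝ ∞ G) {a : ℝ}
    (hb : ∀ j : ℕ, ∃ C : ℝ, ∀ ρ : ℝ, 0 ≤ ρ → ‖iteratedDeriv j G ρ‖ ≤ C * (1 + ρ) ^ (-(a + j)))
    (j : ℕ) : ∃ C : ℝ, ∀ ρ : ℝ, 0 ≤ ρ →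
      ‖iteratedDeriv j (DG Λ G) ρ‖ ≤ C * (1 + ρ) ^ (-(a + j)) := by
  obtain ⟨C1, h1⟩ := hb j
  obtain ⟨C2, h2⟩ := hb (j + 1)
  refine ⟨‖Λ + j‖ * C1 + |C2|, fun ρ hρ => ?_⟩
  have hs : 0 < 1 + ρ := by positivity
  have h3 : (1 + ρ) ^ (-(a + ((j + 1 : ℕ) : ℝ))) = (1 + ρ) ^ (-(a + j)) * (1 + ρ)⁻¹ := by
    rw [← Real.rpow_neg_one, ← Real.rpow_add hs]
    congr 1
    push_cast; ring
  have h4 := h2 ρ hρ
  rw [h3] at h4
  have h5 : ρ * (1 + ρ)⁻¹ ≤ 1 := by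
    rw [← div_eq_mul_inv, div_le_one hs]; linarith
  rw [iteratedDeriv_DG j Λ hG]
  calc ‖(Λ + j) * iteratedDeriv j G ρ + ρ * iteratedDeriv (j + 1) G ρ‖
      ≤ ‖Λ + j‖ * ‖iteratedDeriv j G ρ‖ + ρ * ‖iteratedDeriv (j + 1) G ρ‖ := by
        refine (norm_add_le _ _).trans (le_of_eq ?_)
        rw [norm_mul, norm_mul, Complex.norm_real, Real.norm_of_nonneg hρ]
    _ ≤ ‖Λ + j‖ * (C1 * (1 + ρ) ^ (-(a + j)))
        + ρ * (|C2| * ((1 + ρ) ^ (-(a + j)) * (1 + ρ)⁻¹)) := by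
        gcongr
        · exact h1 ρ hρ
        · refine h4.trans ?_
          gcongr
          exact le_abs_self _
    _ = ‖Λ + j‖ * (C1 * (1 + ρ) ^ (-(a + j)))
        + |C2| * (1 + ρ) ^ (-(a + j)) * (ρ * (1 + ρ)⁻¹) := by ring
    _ ≤ ‖Λ + j‖ * (C1 * (1 + ρ) ^ (-(a + j))) + |C2| * (1 + ρ) ^ (-(a + j)) * 1 := by gcongr
    _ = _ := by ring

end Vale.Agent.P139Z.Sym
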